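import Mathlib
import Crest.Agent.Helper66.TetraCover

/-!
# Row 211: the explicit cover in the shapes consumed by S0324 / S0327
-/

namespace Crest.Agent.Helper66.Tetra

/-- A cover of the standard tetrahedron by triangular cylinders of total Gram area
`≤ √2 (1/2 - γ)` with an explicit `γ > 0` (16 000 000 cylinders). -/
theorem gram_cover_mul :
    ∃ (m : ℕ) (u p q r : Fin m → EuclideanSpace ℝ (Fin 3)),
      (∀ i, ‖u i‖ = 1) ∧
      (∀ i, inner ℝ (p i) (u i) = 0 ∧ inner ℝ (q i) (u i) = 0 ∧ inner ℝ (r i) (u i) = 0) ∧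
      convexHull ℝ ({!₂[1, 0, 0], !₂[-1, 0, 0], !₂[0, 1, Real.sqrt 2], !₂[0, -1, Real.sqrt 2]} :
          Set (EuclideanSpace ℝ (Fin 3))) ⊆
        ⋃ i, {x : EuclideanSpace ℝ (Fin 3) |
          ∃ b ∈ convexHull ℝ {p i, q i, r i}, ∃ t : ℝ, x = b + t • u i} ∧
      ∃ γ : ℝ, 0 < γ ∧ ∑ i, triArea (p i) (q i) (r i) ≤ Real.sqrt 2 * (1 / 2 - γ) := by
  obtain ⟨u, p, q, r, hu, hperp, hcov, hsum⟩ :=
    cover_exact (1/2000) (by norm_num) le_rfl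
  exact ⟨_, u, p, q, r, hu, hperp, hcov, 13/6000 * (1/2000)^2, by norm_num, hsum.le⟩

/-- The same cover with the bound in the form `√2/2 - γ`. -/
theorem gram_cover_sub :
    ∃ (k : ℕ) (u p q r : Fin k → EuclideanSpace ℝ (Fin 3)) (γ : ℝ), 0 < γ ∧ (∀ i, ‖u i‖ = 1) ∧
      (∀ i, inner ℝ (p i) (u i) = 0 ∧ inner ℝ (q i) (u i) = 0 ∧ inner ℝ (r i) (u i) = 0) ∧
      convexHull ℝ ({!₂[1, 0, 0], !₂[-1, 0, 0], !₂[0, 1, Real.sqrt 2],
          !₂[0, -1, Real.sqrt 2]} : Set (EuclideanSpace ℝ (Fin 3))) ⊆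
        ⋃ i, {x : EuclideanSpace ℝ (Fin 3) |
          ∃ b ∈ convexHull ℝ {p i, q i, r i}, ∃ t : ℝ, x = b + t • u i} ∧
      ∑ i, triArea (p i) (q i) (r i) ≤ Real.sqrt 2 / 2 - γ := by
  obtain ⟨m, u, p, q, r, hu, hperp, hcov, γ, hγ, hsum⟩ := gram_cover_mul
  have hs := sqrt2_pos
  refine ⟨m, u, p, q, r, Real.sqrt 2 * γ, by positivity, hu, hperp, hcov, ?_⟩
  calc ∑ i, triArea (p i) (q i) (r i) ≤ Real.sqrt 2 * (1 / 2 - γ) := hsum
    _ = Real.sqrt 2 / 2 - Real.sqrt 2 * γ := by ring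

end Crest.Agent.Helper66.Tetra
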